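import Vale.Agent.P257.V4.K.Main
import Vale.Agent.P257.V4.K.HazFin
import Vale.Agent.P257.V4.A.Final

/-!
# P257: the Smith-Toda complex `V(4)` exists at all primes `p ≥ 11`

First part: there is a stable homotopy category `T` with a suspension spectrum functor `S`, and for
each of them and each prime `p ≥ 11` there is a finite `p`-local spectrum `X` such that for all
complex oriented ring spectra `R` on which `p, v_1, …, v_4` is regular (such as `BP` and `MU`; such
`R` exist) there is an isomorphism of comodules `R_* X ≅ R_* / (p, v_1, …, v_4)`. Here `v_i` is the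
coefficient of `x^{p^i}` in the `p`-series of the orientation.

Second part: for formal group laws with Hazewinkel's logarithm these `v_i` and Hazewinkel's
generators generate the same ideals `(p, v_1, …, v_{n-1})`.

The definitions are in `P257/V4/K/Statement.lean` (with `P251/T/Axioms.lean`, `P251/St/Base.lean`,
`P251/St/Chrom.lean` and `P217/Defs.lean`).
-/

open CategoryTheory MonoidalCategory

namespace Vale.Agent.Results.P257.SmithTodaV4

open Vale.Agent.P251.St Vale.Agent.P251.St.SHCat Vale.Agent.P257.V4.K

theorem result :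
    ((∃ T : SHCat, Nonempty (Susp T)) ∧ ∀ (T : SHCat) (S : Susp T) (p : ℕ), p.Prime → 11 ≤ p →
      (∃ (R : RingSp T) (o : Oriented S R) (v : ∀ k : ℕ, Hom (S.obj (Cn k)) R.obj),
        IsPSeries S o p (p ^ 4) v ∧ IsRegular p 4 v) ∧
      ∃ X : T.C, ∀ (R : RingSp T) (o : Oriented S R) (v : ∀ k : ℕ, Hom (S.obj (Cn k)) R.obj),
        IsPSeries S o p (p ^ 4) v → IsRegular p 4 v → IsSmithToda p 4 v X) ∧
    ∀ (A K : Type) [CommRing A] [CommRing K] (φ : A →+* K) (F : FormalGroup A) [F.IsComm] (p : ℕ)
      (l : ℕ → K) (v : ℕ → A), Function.Injective φ → 2 ≤ p → IsHazewinkel p φ F l v →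
      ∀ n, 0 < n →
        idl p n v = idl p n fun i => PowerSeries.coeff (p ^ i) (Vale.Agent.P217.multSeries F p) :=
  ⟨v4Statement_of_out Vale.Agent.P257.V4.A.outStmt, hazStatement⟩

end Vale.Agent.Results.P257.SmithTodaV4
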