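import Vale.Agent.P257.H690.Main

/-!
# P257: Smith–Toda complexes are detected by a vanishing range

`E` is a generalized homology theory on pairs of simplicial sets with coefficients
`BP_* = K[v_1, v_2, …]` and a coaction of cooperations; for `K = ℤ_(p)` this applies to
Brown–Peterson homology. A Smith–Toda complex `V(n)` for `E` is a finite pair whose homology is
`BP_* / (p, v_1, …, v_n)`, up to a shift, as a graded comodule.
-/

namespace Vale.Agent.Results.P257.VanishingCriterion

open CategoryTheory Vale.Agent.P257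

/-- (1) `V(n)` exists if and only if there is a finite pair whose homology is `K / p` in its lowest
degree `a` and vanishes in the degrees `a + 1, …, a + dim V(n)`.
(2) If `V(n)` exists and `m ≤ n`, then `V(m)` exists.
(3) Every `V(n)` is a pair as in (1), and every pair `P = (X, A)` as in (1) contains `V(m)` for
every `m ≤ n`: there is `A ⊆ W ⊆ X` such that `(W, A)` is a `V(m)`, with the generator mapping to
the one of `P`.
(4) A finite pair is a `V(k - 1)` if and only if it is an iterated extension of `2 ^ k` spheres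
realizing the multiplications by `v_0 = p, v_1, …, v_{k-1}`. -/
theorem result (p : ℕ) (hp : p.Prime) (K : Type) [CommRing K] [IsDomain K]
    [IsDiscreteValuationRing K] (hK : Irreducible (p : K)) (E : BPTheory p K) :
    (∀ n, E.HasSmithToda n ↔
      ∃ P : SPair, P.X.Finite ∧ ∃ a z, E.IsModPPoint a (BPTheory.dimV p n) P z) ∧
    (∀ m n, m ≤ n → E.HasSmithToda n → E.HasSmithToda m) ∧
    (∀ P : SPair, P.X.Finite → ∀ a z n,
      (E.IsSmithToda (n + 1) a P z → E.IsModPPoint a (BPTheory.dimV p n) P z) ∧
      (E.IsModPPoint a (BPTheory.dimV p n) P z → ∀ m ≤ n,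
        ∃ (M : P.Mid) (w : _), E.IsSmithToda (m + 1) a (P.lower M) w ∧
          E.map (P.incl M) w = z)) ∧
    (∀ P : SPair, P.X.Finite → ∀ k a z, E.IsSmithToda k a P z ↔ E.IsTower k a P z) := by
  have hp2 := hp.two_le
  have h3 : ∀ P : SPair, P.X.Finite → ∀ a z n, E.IsModPPoint a (BPTheory.dimV p n) P z →
      ∀ m ≤ n, E.HasSmithToda m := by
    intro P hP a z n hz m hm
    obtain ⟨M, w, hw, -⟩ := E.exists_of_isModPPoint hp2 hK hz hm
    haveI : (P.lower M).X.Finite := inferInstanceAs (SSet.Finite M.W)
    exact ⟨P.lower M, inferInstance, a, w, hw⟩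
  refine ⟨fun n => ⟨?_, ?_⟩, ?_, ?_, ?_⟩
  · rintro ⟨P, hP, a, z, hz⟩
    exact ⟨P, hP, a, z, E.isModPPoint_of_isSmithToda hp2 hK hz⟩
  · rintro ⟨P, hP, a, z, hz⟩
    exact h3 P hP a z n hz n le_rfl
  · rintro m n hm ⟨P, hP, a, z, hz⟩
    exact h3 P hP a z n (E.isModPPoint_of_isSmithToda hp2 hK hz) m hm
  · intro P hP a z n
    exact ⟨fun hz => E.isModPPoint_of_isSmithToda hp2 hK hz,
      fun hz m hm => E.exists_of_isModPPoint hp2 hK hz hm⟩
  · intro P hP k a z
    exact ⟨fun hz => E.isTower_of_isSmithToda hp2 hK k a P z hz,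
      fun hz => E.isSmithToda_of_isTower hp2 hK hz⟩

end Vale.Agent.Results.P257.VanishingCriterion
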